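import Vale.Agent.P281.H156.KD.Core
import Vale.Agent.P281.H283.KD.Gen
import Vale.Agent.P281.H167.LC.Iface

/-! P281, log canonical pairs, row LC2: one metric with a small total curvature. -/

open scoped Manifold ContDiff ComplexOrder Topology
open Complex Set Filter MeasureTheory

set_option linter.all false

noncomputable section

namespace Vale.Agent.P281.H156.LC

open Vale.Agent.P272.K Vale.Agent.P272.K.AMP Vale.Agent.P299.D Vale.Agent.P299 Vale.Agent.P299.H882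
open Vale.Agent.P281.H167.SA Vale.Agent.P281.H167.GM Vale.Agent.P281.H713.KD
open Vale.Agent.P281.H156.KD Vale.Agent.P281.H167.LC
open INT (IsDensity intX IsClosedForm)

variable {n M : ℕ} {X : Type} [TopologicalSpace X] [ChartedSpace (Cm n) X]
  [IsManifold 𝓘(ℂ, Cm n) ω X]
  {χ θ β G g : D.FormM n X} {φ : Chart n X → Cm n → ℝ} {m : ℕ} {ρ : X → ℝ}
  {Dv : Fin M → Set X} {r : Fin M → X → ℝ} {R : Fin M → D.FormM n X} {dl : Fin M → ℝ}

/-- the lower bound of `i∂∂̄ log (ρ + δ)` -/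
lemma log_lower [T2Space X] [CompactSpace X] [ConnectedSpace X] (bd : BdPart) (hG : IsKahler G)
    (hφ : IsCanonicalMetric φ) (hm : 0 < m) (hρ : SmoothFn (n := n) ρ) (hρ0 : ∀ x, 0 ≤ ρ x)
    (hbd : IsBd Dv r R) (hdl0 : ∀ i, 0 ≤ dl i) {C : ℝ} (hcurv : CurvKGe φ m ρ dl R C G) :
    ∃ C₁ : ℝ, ∀ δ : ℝ, 0 < δ → δ ≤ 1 → ∀ e x, At e x →
      (hess (fun y => Real.log (ρ y + δ)) e (e x) + (C₁ : ℂ) • G e (e x)).PosSemidef := by
  have hGH := hG.toIsHermitian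
  obtain ⟨-, ⟨Cb, hCb0, hCb⟩, -⟩ := bd n M X G hG Dv r R hbd
  have hθ : IsClosedForm (fun (e : Chart n X) z => cHess (φ e) z) := INT.isClosedForm_canonical hφ
  obtain ⟨A, hA0, hA, -⟩ := H738.exists_two_sided hGH hθ.smooth (fun e x hx =>
    C2.cHess_isHermitian ((hφ.smooth e x hx).of_le (by norm_cast))) hθ.form
  refine ⟨m * (|C| + A + ∑ i, dl i * Cb), fun δ hδ hδ1 e x hx => ?_⟩
  have hr : 0 < ρ x + δ := by have := hρ0 x; linarith
  have h1 : δ / (ρ x + δ) ≤ 1 := by rw [div_le_one hr]; have := hρ0 x; linarith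
  have h2 : 0 ≤ δ / (ρ x + δ) := by positivity
  have h3 : 0 ≤ |C| - C * (δ / (ρ x + δ)) := by
    have h4 := le_abs_self C
    have h5 := abs_nonneg C
    have h6 : C * (δ / (ρ x + δ)) ≤ |C| * 1 := mul_le_mul h4 h1 h2 h5
    linarith
  have h7 : (∑ i, ((dl i : ℝ) : ℂ) • ((Cb : ℂ) • G e (e x) - R i e (e x))) =
      ((∑ i, dl i * Cb : ℝ) : ℂ) • G e (e x) - ∑ i, ((dl i : ℝ) : ℂ) • R i e (e x) := by
    simp only [smul_sub, smul_smul]
    rw [Finset.sum_sub_distrib, ← Finset.sum_smul]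
    push_cast
    rfl
  have h8 : (∑ i, ((dl i : ℝ) : ℂ) • ((Cb : ℂ) • G e (e x) - R i e (e x))).PosSemidef :=
    Matrix.posSemidef_sum _ fun i _ => H283.GME.smul_psd' (hCb i e x hx).1 (hdl0 i)
  have e1 : hess (fun y => Real.log (ρ y + δ)) e (e x) +
      ((m * (|C| + A + ∑ i, dl i * Cb) : ℝ) : ℂ) • G e (e x) =
      ((m : ℝ) : ℂ) • ((curvK φ m ρ δ dl R e (e x) +
        ((C * (δ / (ρ x + δ)) : ℝ) : ℂ) • G e (e x)) +
        ((|C| - C * (δ / (ρ x + δ)) : ℝ) : ℂ) • G e (e x) +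
        ((A : ℂ) • G e (e x) - cHess (φ e) (e x)) +
        ∑ i, ((dl i : ℝ) : ℂ) • ((Cb : ℂ) • G e (e x) - R i e (e x))) := by
    rw [h7, H283.GME.hess_logD hm hφ hρ hρ0 hδ hx]
    unfold curvK
    generalize (∑ i, ((dl i : ℝ) : ℂ) • R i e (e x)) = S
    generalize (∑ i, dl i * Cb) = s
    push_cast
    module
  rw [e1]
  exact H283.GME.smul_psd' ((((hcurv δ hδ e x hx).add
    (H283.GME.smul_psd' (hG.posDef e x hx).posSemidef h3)).add
    (hA e x hx)).add h8) (Nat.cast_nonneg m)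

lemma hess_const0 {e : Chart n X} {z : Cm n} : hess (fun _ : X => (0 : ℝ)) e z = 0 :=
  C2.cHess_const 0

/-- the total mass of a closed form -/
lemma J_cls [T2Space X] [CompactSpace X] (coh : CohPart) (hG : IsClosedForm G) {B : D.FormM n X}
    (hB : IsClosedForm B) {U : X → ℝ} (hU : SmoothFn (n := n) U) (hg : IsKahler (addH G U)) :
    H882.J (addH G U) (trX (addH G U) B) = mixX G B := by
  have h1 : mixX (addH G U) (addH B fun _ => 0) = mixX G B :=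
    coh n X G B hG hB U _ hU (fun e x hx => contDiffAt_const)
  rw [J_trX hg.toIsHermitian hB.form, ← h1]
  refine mixX_congr (fun e x hx => rfl) fun e x hx => ?_
  have h2 : addH B (fun _ => 0) e (e x) = B e (e x) + hess (fun _ : X => (0 : ℝ)) e (e x) := rfl
  rw [h2, hess_const0, add_zero]

/-- the total mass of `dF` -/
lemma J_dF [T2Space X] [CompactSpace X] (coh : CohPart) (hG : IsClosedForm G) {r : X → ℝ}
    {R : D.FormM n X} (hr : SmoothFn (n := n) r) (h0 : ∀ x, 0 ≤ r x) {ε : ℝ} (hε : 0 < ε)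
    (hR : IsClosedForm R) {U : X → ℝ} (hU : SmoothFn (n := n) U) (hg : IsKahler (addH G U)) :
    H882.J (addH G U) (trX (addH G U) (dF r R ε)) = mixX G R := by
  have h1 : mixX (addH G U) (addH R fun x => Real.log (r x + ε)) = mixX G R :=
    coh n X G R hG hR U _ hU (smooth_logr hr h0 hε)
  rw [J_trX hg.toIsHermitian (isClosed_dF hr h0 hε hR).form, ← h1]
  refine mixX_congr (fun e x hx => rfl) fun e x hx => ?_
  have h2 : addH R (fun x => Real.log (r x + ε)) e (e x) =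
    R e (e x) + cHess (fun y => Real.log (r (e.symm y) + ε)) (e x) := rfl
  have h3 : dF r R ε e (e x) = cHess (fun y => Real.log (r (e.symm y) + ε)) (e x) + R e (e x) := rfl
  rw [h2, h3, add_comm]

/-- the additional part of `τ` -/
def tauX (χ g : D.FormM n X) (dl : Fin M → ℝ) (r : Fin M → X → ℝ) (R : Fin M → D.FormM n X)
    (C₂ : ℝ) (μ : ℕ) (η ε : ℝ) (x : X) : ℝ :=
  μ * ∑ i, η * dl i * (trX g (dF (r i) (R i) ε) x + C₂ * trX g χ x)

section

variable (hg : IsHermitian g) (hχ : IsKahler χ) (hr : ∀ i, SmoothFn (n := n) (r i))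
  (hr0 : ∀ i x, 0 ≤ r i x) (hR : ∀ i, IsClosedForm (R i)) {ε η : ℝ} (hε : 0 < ε)

include hg hχ hr hr0 hR hε in
lemma cont_tauX (C₂ : ℝ) (μ : ℕ) (η : ℝ) :
    Continuous (tauX χ g dl r R C₂ μ η ε) := by
  have cχ := cont_trX hg (INT.IsKahler.isClosedForm hχ)
  have c3 : ∀ i, Continuous fun x => η * dl i *
      (trX g (dF (r i) (R i) ε) x + C₂ * trX g χ x) := fun i =>
    continuous_const.mul ((cont_trX hg (isClosed_dF (hr i) (hr0 i) hε (hR i))).add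
        (continuous_const.mul cχ))
  unfold tauX
  exact continuous_const.mul (continuous_finsetSum _ fun i _ => c3 i)

include hg hχ hr hr0 hR hε in
lemma tauX_nonneg {C₂ : ℝ} (hη : 0 ≤ η) (hdl0 : ∀ i, 0 ≤ dl i)
    (hd : ∀ i x, (dF (r i) (R i) ε (chartAt (Cm n) x) (chartAt (Cm n) x x) +
      (C₂ : ℂ) • χ (chartAt (Cm n) x) (chartAt (Cm n) x x)).PosSemidef) (μ : ℕ) (x : X) :
    0 ≤ tauX χ g dl r R C₂ μ η ε x := by
  unfold tauX
  exact mul_nonneg (Nat.cast_nonneg _) (Finset.sum_nonneg fun i _ =>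
    mul_nonneg (mul_nonneg hη (hdl0 i)) (tau3_nonneg hg hχ (hd i x)))

end

lemma tauX_mono {C₂ C₂' : ℝ} (hg : IsHermitian g) (hχ : IsKahler χ) (hC : C₂ ≤ C₂')
    (hdl0 : ∀ i, 0 ≤ dl i) {η : ℝ} (hη : 0 ≤ η) (μ : ℕ) (ε : ℝ) (x : X) :
    tauX χ g dl r R C₂ μ η ε x ≤ tauX χ g dl r R C₂' μ η ε x := by
  have h2 := trX_chi_nonneg hg hχ x
  unfold tauX
  refine mul_le_mul_of_nonneg_left (Finset.sum_le_sum fun i _ => ?_) (Nat.cast_nonneg _)
  exact mul_le_mul_of_nonneg_left (add_le_add le_rfl (mul_le_mul_of_nonneg_right hC h2))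
    (mul_nonneg hη (hdl0 i))

/-- the total mass of the additional part -/
lemma J_tauX [T2Space X] [CompactSpace X] (coh : CohPart) (hχ : IsKahler χ)
    (hr : ∀ i, SmoothFn (n := n) (r i)) (hr0 : ∀ i x, 0 ≤ r i x) (hR : ∀ i, IsClosedForm (R i))
    (hG : IsClosedForm G) {ε : ℝ} (hε : 0 < ε)
    {U : X → ℝ} (hU : SmoothFn (n := n) U) (hg : IsKahler (addH G U)) (C₂ : ℝ) (μ : ℕ) (η : ℝ) :
    H882.J (addH G U) (tauX χ (addH G U) dl r R C₂ μ η ε) =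
      η * (μ * ∑ i, dl i * (mixX G (R i) + C₂ * mixX G χ)) := by
  have hgH := hg.toIsHermitian
  have cχ := cont_trX hgH (INT.IsKahler.isClosedForm hχ)
  have cd : ∀ i, Continuous (trX (addH G U) (dF (r i) (R i) ε)) := fun i =>
    cont_trX hgH (isClosed_dF (hr i) (hr0 i) hε (hR i))
  have c2 : Continuous fun x => C₂ * trX (addH G U) χ x := continuous_const.mul cχ
  have c3 : ∀ i, Continuous fun x => η * dl i *
      (trX (addH G U) (dF (r i) (R i) ε) x + C₂ * trX (addH G U) χ x) := fun i =>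
    continuous_const.mul ((cd i).add c2)
  unfold tauX
  rw [J_const_mul, J_sum hgH _ _ c3]
  have h1 : ∀ i, H882.J (addH G U) (fun x => η * dl i *
      (trX (addH G U) (dF (r i) (R i) ε) x + C₂ * trX (addH G U) χ x)) =
      η * (dl i * (mixX G (R i) + C₂ * mixX G χ)) := by
    intro i
    rw [J_const_mul, J_add hgH (cd i) c2, J_const_mul]
    have e1 : H882.J (addH G U) (fun x => trX (addH G U) (dF (r i) (R i) ε) x) = mixX G (R i) :=
      J_dF coh hG (hr i) (hr0 i) hε (hR i) hU hg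
    have e2 : H882.J (addH G U) (fun x => trX (addH G U) χ x) = mixX G χ :=
      J_cls coh hG (INT.IsKahler.isClosedForm hχ) hU hg
    rw [e1, e2, mul_assoc]
  rw [Finset.sum_congr rfl fun i _ => h1 i, ← Finset.mul_sum]
  ring

/-- **row LC2**: one metric with small total curvature -/
theorem stepPartE (coh : CohPart) (bd : BdPart) (c0 : C0Part) (int : IntPart) (log : LogPart)
    (boch : BochPartE) : StepPartE := by
  intro n M X _ _ _ _ _ _ χ hχ φ hφ m hm ρ hρ h0 Dv r R hbd dl hdl C hC0 hC θ β hθ hβ hθ0 hβ0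
    p μ K hK N₀ N₁ hN x₀ hρ₀ hx₀ s t hs ht κ hκ
  have hG : IsKahler (addF (addF β s θ) t χ) := isKahler_G hχ hθ hβ hθ0 hβ0 hs ht
  have hGc := INT.IsKahler.isClosedForm hG
  have hdl0 : ∀ i, 0 ≤ dl i := fun i => (hdl i).1
  obtain ⟨hr, ⟨Cb, hCb, hb⟩, -⟩ := bd n M X χ hχ Dv r R hbd
  have hr0 : ∀ i x, 0 ≤ r i x := fun i x => IsBd.nonneg hbd i x
  have hR : ∀ i, IsClosedForm (R i) := hbd.closed
  obtain ⟨C₂, hC₂, hB⟩ := boch n M X χ hχ φ hφ m hm ρ hρ h0 Dv r R hbd dl hdl0 C hC0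
    hC p μ K hK N₀ N₁ hN
  set C₃ : ℝ := max C₂ Cb with hC₃
  have hC₃0 : 0 ≤ C₃ := hC₂.trans (le_max_left _ _)
  set SK : ℝ := ∑ i, (K i : ℝ) with hSK
  have hSK0 : 0 ≤ SK := Finset.sum_nonneg fun i _ => Nat.cast_nonneg _
  have hμ0 : (0 : ℝ) ≤ μ := Nat.cast_nonneg μ
  have hti : 0 < t⁻¹ := inv_pos.2 ht
  -- the exponents
  set T : ℝ := μ * ∑ i, dl i * (mixX (addF (addF β s θ) t χ) (R i) +
    C₃ * mixX (addF (addF β s θ) t χ) χ) with hT
  obtain ⟨η, hη0, hη1, hηT⟩ : ∃ η : ℝ, 0 < η ∧ η ≤ 1 ∧ η * T ≤ κ / 2 := by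
    have hT1 : 0 < |T| + 1 := by positivity
    refine ⟨min 1 (κ / (2 * (|T| + 1))), lt_min one_pos (by positivity), min_le_left _ _, ?_⟩
    have h1 : 0 ≤ min 1 (κ / (2 * (|T| + 1))) := le_min zero_le_one (by positivity)
    calc min 1 (κ / (2 * (|T| + 1))) * T ≤ min 1 (κ / (2 * (|T| + 1))) * (|T| + 1) :=
          mul_le_mul_of_nonneg_left (by have := le_abs_self T; linarith) h1
      _ ≤ κ / (2 * (|T| + 1)) * (|T| + 1) :=
          mul_le_mul_of_nonneg_right (min_le_right _ _) hT1.le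
      _ = κ / 2 := by field_simp
  have hdlη : ∀ i, 0 ≤ (1 - η) * dl i ∧ (1 - η) * dl i < 1 := fun i => by
    have h1 : 0 ≤ 1 - η := by linarith
    have h2 := mul_le_mul_of_nonneg_left (hdl i).2 h1
    exact ⟨mul_nonneg h1 (hdl0 i), by linarith⟩
  set A1 : ℝ := μ * C * t⁻¹ + SK with hA1
  have hA10 : 0 ≤ A1 := by positivity
  set κ₁ : ℝ := κ / (4 * (A1 + 1)) with hκ₁
  have hκ₁p : 0 < κ₁ := by positivity
  have hCG := CurvKGe.toG h0 hC0 hC hθ0 hβ0 hs ht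
  obtain ⟨C₁, hlow⟩ := log_lower bd hG hφ hm hρ h0 hbd hdl0 hCG
  have hh : ∃ x, 0 < N₀ χ x + N₁ χ x := ⟨x₀, add_pos_of_pos_of_nonneg hx₀ (hN.nonneg χ x₀ hχ).2⟩
  obtain ⟨a, b, ha, cb, hb0, hb1, δ₁, hδ₁, H1⟩ := H283.KD.massGen c0 int log bd hG hφ hm hρ h0
    ⟨x₀, hρ₀⟩ hbd hdlη hlow hN.hol hh (C₃ / t) hκ₁p
  obtain ⟨C', hC', hBa⟩ := hB a ha
  set A2 : ℝ := C' * t⁻¹ * M with hA2
  have hA20 : 0 ≤ A2 := by positivity
  set κ₂ : ℝ := κ / (4 * (A2 + 1)) with hκ₂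
  have hκ₂p : 0 < κ₂ := by positivity
  obtain ⟨_, _, _, _, _, _, δ₂, hδ₂, H2⟩ := H283.KD.massGen c0 int log bd hG hφ hm hρ h0
    ⟨x₀, hρ₀⟩ hbd hdlη hlow hN.hol hh (C₃ / t) hκ₂p
  set δ : ℝ := min (min δ₁ δ₂) 1 with hδdef
  have hδ : 0 < δ := lt_min (lt_min hδ₁ hδ₂) one_pos
  have hδ1 : δ ≤ 1 := min_le_right _ _
  have hδδ₁ : δ ≤ δ₁ := (min_le_left _ _).trans (min_le_left _ _)
  have hδδ₂ : δ ≤ δ₂ := (min_le_left _ _).trans (min_le_right _ _)
  have hcan := isCanonical_phiK (m := m) (dl := fun i => (1 - η) * dl i) hφ hρ h0 hδ hδ hr hr0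
  obtain ⟨U, c, hU, hg, hlg⟩ := exists_yauC H882.yau hG hcan
  obtain ⟨E1, -, E3⟩ := H1 δ δ hδ hδδ₁ hδ hδδ₁ U c hU hg hlg
  obtain ⟨-, E2, -⟩ := H2 δ δ hδ hδδ₂ hδ hδδ₂ U c hU hg hlg
  have hBB : ∀ N : D.FormM n X → X → ℝ, N = N₀ ∨ N = N₁ →
      BochF (addH (addF (addF β s θ) t χ) U)
        (fun x => tauK χ (addH (addF (addF β s θ) t χ) U) φ m ρ dl r R C C' C₃ μ K b δ δ x +
          tauX χ (addH (addF (addF β s θ) t χ) U) dl r R C₃ μ η δ x)
        (fun x => N (addH (addF (addF β s θ) t χ) U) x * pK r K δ x) := by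
    intro N hNN
    have h1 := hBa b cb hb0 hb1 δ δ η hδ hδ hδ1 hη0.le _ c hg hlg N hNN
    exact BochF.mono h1 fun x => add_le_add
      (tauK_mono (C := C) (C' := C') hg.toIsHermitian hχ (le_max_left C₂ Cb) hb0 μ K δ δ x)
      (tauX_mono hg.toIsHermitian hχ (le_max_left C₂ Cb) hdl0 hη0.le μ δ x)
  have hd : ∀ i x, (dF (r i) (R i) δ (chartAt (Cm n) x) (chartAt (Cm n) x x) +
      (C₃ : ℂ) • χ (chartAt (Cm n) x) (chartAt (Cm n) x x)).PosSemidef := by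
    intro i x
    have hx := at_chartAt (n := n) x
    have h1 := ((hb i _ x hx).2.2 δ hδ hδ1).1
    have h2 : 0 ≤ C₃ - Cb * (δ / (r i x + δ)) := by
      have h3 : δ / (r i x + δ) ≤ 1 := by
        have := hr0 i x
        rw [div_le_one (by linarith)]; linarith
      have h4 : Cb * (δ / (r i x + δ)) ≤ Cb * 1 := mul_le_mul_of_nonneg_left h3 hCb
      have h5 : Cb ≤ C₃ := le_max_right _ _
      linarith
    have h3 := h1.add (psd_real_smul ((hχ.posDef _ x hx).posSemidef) h2)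
    have e1 : dF (r i) (R i) δ (chartAt (Cm n) x) (chartAt (Cm n) x x) +
        ((Cb * (δ / (r i x + δ)) : ℝ) : ℂ) • χ (chartAt (Cm n) x) (chartAt (Cm n) x x) +
        ((C₃ - Cb * (δ / (r i x + δ)) : ℝ) : ℂ) • χ (chartAt (Cm n) x) (chartAt (Cm n) x x) =
        dF (r i) (R i) δ (chartAt (Cm n) x) (chartAt (Cm n) x x) +
          (C₃ : ℂ) • χ (chartAt (Cm n) x) (chartAt (Cm n) x x) := by
      rw [add_assoc, ← add_smul]
      congr 2
      push_cast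
      ring
    rw [← e1]
    exact h3
  have hJ := J_tauK_le (m := m) (dl := dl) coh hχ hφ hρ h0 hr hr0 hR hθ hβ hθ0 hβ0 hs ht hδ hδ hU hg
    cb hb0 (C := C) (C' := C') (C₂ := C₃) (κ₁ := κ₁) (κ₂ := κ₂) hC0 hC' hC₃0 μ K E1 E2
    (fun i hi => E3 i (hN.ne i hi))
  have hJX := J_tauX (dl := dl) coh hχ hr hr0 hR hGc hδ hU hg C₃ μ η
  have ct1 := cont_tauK (m := m) (dl := dl) hg.toIsHermitian hχ hφ hρ h0 hr hr0 hR hδ hδ cb
    C C' C₃ μ K
  have ct2 := cont_tauX (dl := dl) hg.toIsHermitian hχ hr hr0 hR hδ C₃ μ η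
  refine ⟨U, fun x => tauK χ (addH (addF (addF β s θ) t χ) U) φ m ρ dl r R C C' C₃ μ K b δ δ x +
    tauX χ (addH (addF (addF β s θ) t χ) U) dl r R C₃ μ η δ x, pK r K δ, hU, hg, ct1.add ct2,
    fun x => add_nonneg
    (tauK_nonneg hg.toIsHermitian hχ hφ hρ h0 hr0 hR hδ hδ hC hC' hd hb0 μ K x)
    (tauX_nonneg hg.toIsHermitian hχ hr hr0 hR hδ hη0.le hdl0 hd μ x),
    smooth_pK hr hr0 hδ K, pK_pos hr0 hδ K, hBB, ?_⟩
  rw [J_add hg.toIsHermitian ct1 ct2, hJX]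
  have g1 : A1 * κ₁ ≤ κ / 4 := by
    rw [hκ₁]
    have : A1 * (κ / (4 * (A1 + 1))) = κ / 4 * (A1 / (A1 + 1)) := by
      field_simp
    rw [this]
    have h3 : A1 / (A1 + 1) ≤ 1 := by
      rw [div_le_one (by positivity)]; linarith
    calc κ / 4 * (A1 / (A1 + 1)) ≤ κ / 4 * 1 := mul_le_mul_of_nonneg_left h3 (by positivity)
      _ = κ / 4 := mul_one _
  have g2 : A2 * κ₂ ≤ κ / 4 := by
    rw [hκ₂]
    have : A2 * (κ / (4 * (A2 + 1))) = κ / 4 * (A2 / (A2 + 1)) := by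
      field_simp
    rw [this]
    have h3 : A2 / (A2 + 1) ≤ 1 := by
      rw [div_le_one (by positivity)]; linarith
    calc κ / 4 * (A2 / (A2 + 1)) ≤ κ / 4 * 1 := mul_le_mul_of_nonneg_left h3 (by positivity)
      _ = κ / 4 := mul_one _
  have g3 : A1 * κ₁ = μ * C * t⁻¹ * κ₁ + SK * κ₁ := by rw [hA1]; ring
  have g4 : A2 * κ₂ = C' * t⁻¹ * (M * κ₂) := by rw [hA2]; ring
  rw [g3] at g1
  rw [g4] at g2
  linarith

end Vale.Agent.P281.H156.LC
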